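import Mathlib
import Vale.Agent.P139.Bdl.B1

/-!
# P139: nonresonance of the Bogoliubov frequencies (three waves)

`exists_gap`: for all `μ > 0` outside a countable set there is `δ > 0` with
`δ ≤ |Om μ a + Om μ b - Om μ (a + b)|` for all `a, b, a + b ≠ 0`.
-/

set_option linter.all false

namespace Vale.Agent.P139.H337

open Set Filter Topology
open Vale.Agent.P139.A

/-- `φ_X(μ) = sqrt(X(X + 2 μ)) - X` for `X = 1, 2, ...` (written `X + 1`), and `φ_∞(μ) = μ`. -/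
noncomputable def ph (X : OnePoint ℕ) (μ : ℝ) : ℝ :=
  Option.elim (X : Option ℕ) μ fun X => Real.sqrt (((X : ℝ) + 1) * ((X : ℝ) + 1 + 2 * μ)) - ((X : ℝ) + 1)

theorem ph_infty (μ : ℝ) : ph OnePoint.infty μ = μ := rfl

theorem ph_coe (X : ℕ) (μ : ℝ) :
    ph (X : OnePoint ℕ) μ = Real.sqrt (((X : ℝ) + 1) * ((X : ℝ) + 1 + 2 * μ)) - ((X : ℝ) + 1) := rfl

theorem ph_analytic (X : OnePoint ℕ) : AnalyticOnNhd ℝ (ph X) (Ioi (-1 / 2)) := by
  intro μ hμ
  have hμ' : (-1 / 2 : ℝ) < μ := hμ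
  induction X using OnePoint.rec with
  | infty => exact analyticAt_id
  | coe X =>
    have hX : (0 : ℝ) ≤ X := Nat.cast_nonneg X
    have h1 : AnalyticAt ℝ (fun ν : ℝ => ((X : ℝ) + 1) * ((X : ℝ) + 1 + 2 * ν)) μ := by fun_prop
    have h2 : 0 < ((X : ℝ) + 1) * ((X : ℝ) + 1 + 2 * μ) := by
      apply mul_pos <;> linarith
    have h3 : AnalyticAt ℝ (fun ν : ℝ =>
        Real.exp (1 / 2 * Real.log (((X : ℝ) + 1) * ((X : ℝ) + 1 + 2 * ν))) - ((X : ℝ) + 1)) μ :=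
      ((analyticAt_const.mul (h1.log h2)).rexp).sub analyticAt_const
    refine h3.congr ?_
    have h4 : ∀ᶠ ν in 𝓝 μ, 0 < ((X : ℝ) + 1) * ((X : ℝ) + 1 + 2 * ν) :=
      h1.continuousAt.eventually (lt_mem_nhds h2)
    filter_upwards [h4] with ν hν
    rw [ph_coe, Real.sqrt_eq_rpow, Real.rpow_def_of_pos hν, mul_comm]

theorem ph_deriv (X : OnePoint ℕ) : HasDerivAt (ph X) 1 0 := by
  induction X using OnePoint.rec with
  | infty => exact hasDerivAt_id 0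
  | coe X =>
    have hX : (0 : ℝ) ≤ X := Nat.cast_nonneg X
    have h1 : HasDerivAt (fun ν : ℝ => ((X : ℝ) + 1) * ((X : ℝ) + 1 + 2 * ν))
        (((X : ℝ) + 1) * (2 * 1)) 0 :=
      (((hasDerivAt_id (0 : ℝ)).const_mul 2).const_add ((X : ℝ) + 1)).const_mul ((X : ℝ) + 1)
    have h2 := (h1.sqrt (by positivity)).sub_const ((X : ℝ) + 1)
    have e : ((X : ℝ) + 1) * (2 * 1) / (2 * Real.sqrt (((X : ℝ) + 1) * ((X : ℝ) + 1 + 2 * 0))) = 1 := by
      rw [mul_zero, add_zero, Real.sqrt_mul_self (by linarith)]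
      field_simp
    rw [e] at h2
    exact h2

/-- The function of `μ` attached to a type of interaction. -/
noncomputable def ff (e : ℤ) (A B C : OnePoint ℕ) (μ : ℝ) : ℝ := e + ph A μ + ph B μ - ph C μ

theorem zeros_countable (e : ℤ) (A B C : OnePoint ℕ) :
    ({μ | ff e A B C μ = 0} ∩ Ioi (-1 / 2)).Countable := by
  have ha : AnalyticOnNhd ℝ (ff e A B C) (Ioi (-1 / 2)) := fun μ hμ =>
    ((analyticAt_const.add (ph_analytic A μ hμ)).add (ph_analytic B μ hμ)).sub (ph_analytic C μ hμ)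
  rcases ha.eqOn_zero_or_eventually_ne_zero_of_preconnected isPreconnected_Ioi with h | h
  · exfalso
    have h0 : (0 : ℝ) ∈ Ioi (-1 / 2 : ℝ) := by
      show (-1 / 2 : ℝ) < 0
      norm_num
    have h1 : HasDerivAt (ff e A B C) (1 + 1 - 1) 0 := by
      have := (((hasDerivAt_const (0 : ℝ) (e : ℝ)).add (ph_deriv A)).add (ph_deriv B)).sub (ph_deriv C)
      rw [zero_add] at this
      exact this
    have h2 : HasDerivAt (ff e A B C) 0 0 := by
      refine (hasDerivAt_const (0 : ℝ) (0 : ℝ)).congr_of_eventuallyEq ?_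
      filter_upwards [isOpen_Ioi.mem_nhds h0] with x hx
      exact h hx
    have := h1.unique h2
    norm_num at this
  · refine (HereditarilyLindelofSpace.isLindelof _).countable_of_isDiscrete
      (isDiscrete_of_codiscreteWithin ?_)
    filter_upwards [h] with x hx
    exact hx

/-- The exceptional set. -/
def bad : Set ℝ := {μ | 0 < μ ∧ ∃ (e : ℤ) (A B C : OnePoint ℕ), ff e A B C μ = 0}

theorem bad_countable : bad.Countable := by
  have h : bad ⊆ ⋃ (p : ℤ × Option ℕ × Option ℕ × Option ℕ),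
      ({μ | ff p.1 (p.2.1 : OnePoint ℕ) (p.2.2.1 : OnePoint ℕ) (p.2.2.2 : OnePoint ℕ) μ = 0} ∩
        Ioi (-1 / 2)) := by
    rintro μ ⟨h0, e, A, B, C, h⟩
    exact mem_iUnion.2 ⟨(e, A, B, C), h, (by show (-1 / 2 : ℝ) < μ; linarith)⟩
  exact (countable_iUnion fun p => zeros_countable _ _ _ _).mono h

theorem ph_bounds {μ : ℝ} (hμ : 0 < μ) (X : OnePoint ℕ) : 0 ≤ ph X μ ∧ ph X μ ≤ μ := by
  induction X using OnePoint.rec with
  | infty => exact ⟨hμ.le, le_rfl⟩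
  | coe X =>
    have hX : (0 : ℝ) ≤ X := Nat.cast_nonneg X
    rw [ph_coe]
    constructor
    · rw [sub_nonneg]
      apply Real.le_sqrt_of_sq_le
      nlinarith
    · rw [sub_le_iff_le_add]
      apply Real.sqrt_le_iff.2
      constructor
      · linarith
      · nlinarith [sq_nonneg μ]

theorem ph_tendsto {μ : ℝ} (hμ : 0 < μ) :
    Tendsto (fun X : ℕ => ph (X : OnePoint ℕ) μ) atTop (𝓝 μ) := by
  have h1 : ∀ X : ℕ, ph (X : OnePoint ℕ) μ = 2 * μ / (Real.sqrt (1 + 2 * μ / ((X : ℝ) + 1)) + 1) := by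
    intro X
    have hX : (0 : ℝ) < (X : ℝ) + 1 := by positivity
    rw [ph_coe]
    have e : ((X : ℝ) + 1) * ((X : ℝ) + 1 + 2 * μ) =
        ((X : ℝ) + 1) ^ 2 * (1 + 2 * μ / ((X : ℝ) + 1)) := by
      field_simp
    rw [e, Real.sqrt_mul (sq_nonneg _), Real.sqrt_sq hX.le]
    have hs : 0 ≤ 1 + 2 * μ / ((X : ℝ) + 1) := by positivity
    have h2 : Real.sqrt (1 + 2 * μ / ((X : ℝ) + 1)) ^ 2 = 1 + 2 * μ / ((X : ℝ) + 1) :=
      Real.sq_sqrt hs
    have h3 : 0 < Real.sqrt (1 + 2 * μ / ((X : ℝ) + 1)) + 1 := by positivity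
    rw [eq_div_iff h3.ne']
    have h4 : (((X : ℝ) + 1) * Real.sqrt (1 + 2 * μ / ((X : ℝ) + 1)) - ((X : ℝ) + 1)) *
        (Real.sqrt (1 + 2 * μ / ((X : ℝ) + 1)) + 1) =
        ((X : ℝ) + 1) * (Real.sqrt (1 + 2 * μ / ((X : ℝ) + 1)) ^ 2 - 1) := by ring
    rw [h4, h2]
    field_simp
    ring
  simp_rw [h1]
  have h5 : Tendsto (fun X : ℕ => 2 * μ / ((X : ℝ) + 1)) atTop (𝓝 0) :=
    tendsto_const_nhds.div_atTop (tendsto_atTop_add_const_right _ _ tendsto_natCast_atTop_atTop)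
  have h6 : Tendsto (fun X : ℕ => Real.sqrt (1 + 2 * μ / ((X : ℝ) + 1)) + 1) atTop
      (𝓝 (Real.sqrt (1 + 0) + 1)) := ((tendsto_const_nhds.add h5).sqrt).add tendsto_const_nhds
  have h7 := (tendsto_const_nhds (x := 2 * μ)).div h6 (by positivity)
  have e : 2 * μ / (Real.sqrt (1 + 0) + 1) = μ := by
    rw [add_zero, Real.sqrt_one]
    ring
  rw [e] at h7
  exact h7

theorem ph_cont {μ : ℝ} (hμ : 0 < μ) : Continuous fun X : OnePoint ℕ => ph X μ :=
  (OnePoint.continuous_iff_from_nat _).2 (ph_tendsto hμ)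

/-- **The gap**, abstract form. -/
theorem gap_abs {μ : ℝ} (hμ : 0 < μ) (hb : μ ∉ bad) : ∃ δ : ℝ, 0 < δ ∧ δ ≤ 1 ∧
    ∀ (e : ℤ) (A B C : OnePoint ℕ), δ ≤ |ff e A B C μ| := by
  have h1 : ∀ e : ℤ, ∃ δ : ℝ, 0 < δ ∧ ∀ A B C : OnePoint ℕ, δ ≤ |ff e A B C μ| := by
    intro e
    have hc : Continuous fun p : OnePoint ℕ × OnePoint ℕ × OnePoint ℕ =>
        |ff e p.1 p.2.1 p.2.2 μ| := by
      have h := ph_cont hμ
      unfold ff
      exact ((((continuous_const.add (h.comp continuous_fst)).add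
        (h.comp (continuous_fst.comp continuous_snd))).sub
        (h.comp (continuous_snd.comp continuous_snd)))).abs
    obtain ⟨p, -, hp⟩ := (isCompact_univ (X := OnePoint ℕ × OnePoint ℕ × OnePoint ℕ)).exists_isMinOn
      ⟨(OnePoint.infty, OnePoint.infty, OnePoint.infty), mem_univ _⟩ hc.continuousOn
    refine ⟨|ff e p.1 p.2.1 p.2.2 μ|, ?_, fun A B C => hp (mem_univ (A, B, C))⟩
    rw [abs_pos]
    intro h0
    exact hb ⟨hμ, e, _, _, _, h0⟩
  choose δ hδ hδ' using h1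
  obtain ⟨N, hN⟩ := exists_nat_gt (2 * μ + 1)
  have hne : (Finset.Icc (-(N : ℤ)) N).Nonempty := ⟨0, by simp⟩
  obtain ⟨e₀, he₀, hmin⟩ := (Finset.Icc (-(N : ℤ)) N).exists_min_image δ hne
  refine ⟨min 1 (δ e₀), lt_min one_pos (hδ e₀), min_le_left _ _, fun e A B C => ?_⟩
  by_cases he : e ∈ Finset.Icc (-(N : ℤ)) N
  · exact (min_le_right _ _).trans ((hmin e he).trans (hδ' e A B C))
  · refine (min_le_left _ _).trans ?_
    have hA := ph_bounds hμ A
    have hB := ph_bounds hμ B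
    have hC := ph_bounds hμ C
    have h2 : (N : ℝ) < |(e : ℝ)| := by
      rw [Finset.mem_Icc, ← abs_le, not_le] at he
      have : ((N : ℤ) : ℝ) < ((|e| : ℤ) : ℝ) := by exact_mod_cast he
      rw [Int.cast_abs] at this
      exact_mod_cast this
    have h3 : |ph A μ + ph B μ - ph C μ| ≤ 2 * μ := by
      rw [abs_le]
      constructor <;> linarith [hA.1, hA.2, hB.1, hB.2, hC.1, hC.2]
    have h4 : |(e : ℝ)| - |ph A μ + ph B μ - ph C μ| ≤ |ff e A B C μ| := by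
      have h5 := abs_sub_abs_le_abs_sub (e : ℝ) (-(ph A μ + ph B μ - ph C μ))
      rw [abs_neg] at h5
      refine h5.trans (le_of_eq ?_)
      unfold ff
      congr 1
      ring
    linarith

/-! ### The lattice -/

variable {d : ℕ}

/-- `|n|²` as an integer. -/
def nsq (n : Lat d) : ℤ := ∑ j, n j ^ 2

theorem nsq_cast (n : Lat d) : (nsq n : ℝ) = sqNorm n := by
  unfold nsq sqNorm
  push_cast
  rfl

theorem one_le_nsq {n : Lat d} (hn : n ≠ 0) : 1 ≤ nsq n := by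
  have := one_le_sqNorm hn
  rw [← nsq_cast] at this
  exact_mod_cast this

theorem Om_eq (μ : ℝ) {n : Lat d} (hn : n ≠ 0) :
    Om μ n = nsq n + ph (((nsq n - 1).toNat : ℕ) : OnePoint ℕ) μ := by
  have h1 := one_le_nsq hn
  have h2 : (((nsq n - 1).toNat : ℕ) : ℝ) + 1 = sqNorm n := by
    have h3 : (((nsq n - 1).toNat : ℕ) : ℤ) = nsq n - 1 := Int.toNat_of_nonneg (by linarith)
    have h4 : ((((nsq n - 1).toNat : ℕ) : ℤ) : ℝ) = ((nsq n - 1 : ℤ) : ℝ) := by rw [h3]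
    rw [Int.cast_natCast] at h4
    rw [h4, ← nsq_cast]
    push_cast
    ring
  rw [ph_coe, h2, nsq_cast]
  unfold Om
  ring

/-- **Three waves do not resonate.** -/
theorem gap {μ : ℝ} (hμ : 0 < μ) (hb : μ ∉ bad) : ∃ δ : ℝ, 0 < δ ∧ δ ≤ 1 ∧
    ∀ a b : Lat d, a ≠ 0 → b ≠ 0 → a + b ≠ 0 → δ ≤ |Om μ a + Om μ b - Om μ (a + b)| := by
  obtain ⟨δ, h0, h1, h⟩ := gap_abs hμ hb
  refine ⟨δ, h0, h1, fun a b ha hb' hab => ?_⟩
  have h2 := h (nsq a + nsq b - nsq (a + b)) (((nsq a - 1).toNat : ℕ) : OnePoint ℕ)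
    (((nsq b - 1).toNat : ℕ) : OnePoint ℕ) (((nsq (a + b) - 1).toNat : ℕ) : OnePoint ℕ)
  refine h2.trans (le_of_eq ?_)
  rw [Om_eq μ ha, Om_eq μ hb', Om_eq μ hab]
  unfold ff
  congr 1
  push_cast
  ring

/-- The exceptional set of `μ` is countable. -/
theorem exists_gap : {μ : ℝ | 0 < μ ∧ ¬ ∃ δ : ℝ, 0 < δ ∧ δ ≤ 1 ∧ ∀ a b : Lat d, a ≠ 0 → b ≠ 0 →
    a + b ≠ 0 → δ ≤ |Om μ a + Om μ b - Om μ (a + b)|}.Countable := by
  refine bad_countable.mono ?_
  rintro μ ⟨h0, h⟩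
  by_contra hb
  exact h (gap h0 hb)

end Vale.Agent.P139.H337
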